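import Mathlib
import Vale.Agent.Lib.P162.Defs
import Vale.Agent.Lib.P162.RDefs
import Vale.Agent.Lib.P162.CVDefs
import Vale.Agent.Lib.P162.helper95.KmatBasic

/-!
P162, pool job CV6 (backup copy, helper62): the Doeblin step for the collision probability of
the two walkers. A minorization `kappa` of the meeting probability after `B` steps contracts
the collision probability: `Dcol (t + B) <= kappa + (1 - kappa * m) * Dcol t`.

The argument is carried out for abstract finite sums first (no constant of the Thorp shuffle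
files occurs in those lemmas); the last theorem only instantiates them.
-/

namespace Vale.Agent.Lib.P162.H62CV

open Finset BigOperators

/-- Abstract Doeblin contraction: pure finite sums. -/
theorem abstract_contract {V A : Type*} [Fintype V] [Fintype A]
    (M G : V → A → A → ℝ) (I : V → Prop) (a : V → A → Prop) [∀ v, DecidablePred (a v)]
    (κ m : ℝ) (hκm : κ * m ≤ 1)
    (hM : ∀ v q q', 0 ≤ M v q q') (hG : ∀ v q q', 0 ≤ G v q q')
    (hsupp : ∀ v q q', M v q q' ≠ 0 → I v ∧ a v q ∧ a v q')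
    (hmin : ∀ v q q', I v → a v q → a v q' → κ ≤ G v q q')
    (hrow : ∀ v q, ∑ q', G v q q' = 1) (hcol : ∀ v q', ∑ q, G v q q' = 1)
    (hcard : ∀ v, I v → ((univ.filter fun q => a v q).card : ℝ) = m)
    (hle : ∀ v q q', 2 * M v q q' ≤ M v q q + M v q' q')
    (htot : ∑ v, ∑ q, ∑ q', M v q q' = 1) :
    ∑ v, ∑ q, ∑ q', M v q q' * G v q q' ≤ κ + (1 - κ * m) * ∑ v, ∑ q, M v q q := by
  classical
  -- the reduced kernel
  set G' : V → A → A → ℝ := fun v q q' =>
    if I v ∧ a v q ∧ a v q' then G v q q' - κ else 0 with hG'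
  have hG'nn : ∀ v q q', 0 ≤ G' v q q' := by
    intro v q q'
    simp only [hG']
    split_ifs with hg
    · linarith [hmin v q q' hg.1 hg.2.1 hg.2.2]
    · exact le_refl _
  have hsplit : ∀ v q q', M v q q' * G v q q' = κ * M v q q' + M v q q' * G' v q q' := by
    intro v q q'
    simp only [hG']
    split_ifs with hg
    · ring
    · have h0 : M v q q' = 0 := by
        by_contra hne
        exact hg (hsupp v q q' hne)
      rw [h0]
      ring
  -- row sums of the reduced kernel
  have hrow' : ∀ v q, ∑ q', G' v q q' ≤ 1 - κ * m := by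
    intro v q
    by_cases hIa : I v ∧ a v q
    · have e1 : ∀ q', G' v q q' = if a v q' then G v q q' - κ else 0 := by
        intro q'
        simp only [hG']
        by_cases hq' : a v q'
        · rw [if_pos ⟨hIa.1, hIa.2, hq'⟩, if_pos hq']
        · rw [if_neg (fun hh => hq' hh.2.2), if_neg hq']
      rw [Finset.sum_congr rfl (fun q' _ => e1 q'), ← Finset.sum_filter, Finset.sum_sub_distrib,
        Finset.sum_const, nsmul_eq_mul, hcard v hIa.1]
      have h2 : ∑ q' ∈ univ.filter (fun q' => a v q'), G v q q' ≤ ∑ q', G v q q' :=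
        Finset.sum_le_sum_of_subset_of_nonneg (Finset.filter_subset _ _)
          (fun q' _ _ => hG v q q')
      rw [hrow v q] at h2
      linarith [mul_comm m κ]
    · have e1 : ∀ q', G' v q q' = 0 := by
        intro q'
        simp only [hG']
        rw [if_neg (fun hh => hIa ⟨hh.1, hh.2.1⟩)]
      rw [Finset.sum_congr rfl (fun q' _ => e1 q'), Finset.sum_const_zero]
      linarith
  have hcol' : ∀ v q', ∑ q, G' v q q' ≤ 1 - κ * m := by
    intro v q'
    by_cases hIa : I v ∧ a v q'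
    · have e1 : ∀ q, G' v q q' = if a v q then G v q q' - κ else 0 := by
        intro q
        simp only [hG']
        by_cases hq : a v q
        · rw [if_pos ⟨hIa.1, hq, hIa.2⟩, if_pos hq]
        · rw [if_neg (fun hh => hq hh.2.1), if_neg hq]
      rw [Finset.sum_congr rfl (fun q _ => e1 q), ← Finset.sum_filter, Finset.sum_sub_distrib,
        Finset.sum_const, nsmul_eq_mul, hcard v hIa.1]
      have h2 : ∑ q ∈ univ.filter (fun q => a v q), G v q q' ≤ ∑ q, G v q q' :=
        Finset.sum_le_sum_of_subset_of_nonneg (Finset.filter_subset _ _)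
          (fun q _ _ => hG v q q')
      rw [hcol v q'] at h2
      linarith [mul_comm m κ]
    · have e1 : ∀ q, G' v q q' = 0 := by
        intro q
        simp only [hG']
        rw [if_neg (fun hh => hIa ⟨hh.1, hh.2.2⟩)]
      rw [Finset.sum_congr rfl (fun q _ => e1 q), Finset.sum_const_zero]
      linarith
  -- the main estimate for each v
  have hv : ∀ v, ∑ q, ∑ q', M v q q' * G' v q q' ≤ (1 - κ * m) * ∑ q, M v q q := by
    intro v
    have s1 : ∑ q, ∑ q', M v q q' * G' v q q'
        ≤ ∑ q, ∑ q', ((M v q q + M v q' q') / 2) * G' v q q' := by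
      refine Finset.sum_le_sum (fun q _ => Finset.sum_le_sum (fun q' _ => ?_))
      exact mul_le_mul_of_nonneg_right (by linarith [hle v q q']) (hG'nn v q q')
    have s2 : ∑ q, ∑ q', ((M v q q + M v q' q') / 2) * G' v q q'
        = (1 / 2) * ∑ q, M v q q * ∑ q', G' v q q'
          + (1 / 2) * ∑ q', M v q' q' * ∑ q, G' v q q' := by
      have t1 : ∑ q, ∑ q', ((M v q q + M v q' q') / 2) * G' v q q'
          = ∑ q, ∑ q', ((1 / 2) * (M v q q * G' v q q') + (1 / 2) * (M v q' q' * G' v q q')) := by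
        refine Finset.sum_congr rfl (fun q _ => Finset.sum_congr rfl (fun q' _ => ?_))
        ring
      rw [t1]
      simp only [Finset.sum_add_distrib, ← Finset.mul_sum]
      congr 1
      rw [Finset.sum_comm]
      simp only [← Finset.mul_sum]
    have s3 : ∑ q, M v q q * ∑ q', G' v q q' ≤ (1 - κ * m) * ∑ q, M v q q := by
      rw [Finset.mul_sum]
      refine Finset.sum_le_sum (fun q _ => ?_)
      rw [mul_comm]
      exact mul_le_mul_of_nonneg_right (hrow' v q) (hM v q q)
    have s4 : ∑ q', M v q' q' * ∑ q, G' v q q' ≤ (1 - κ * m) * ∑ q, M v q q := by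
      rw [Finset.mul_sum]
      refine Finset.sum_le_sum (fun q _ => ?_)
      rw [mul_comm]
      exact mul_le_mul_of_nonneg_right (hcol' v q) (hM v q q)
    linarith
  -- assembling
  have e0 : ∑ v, ∑ q, ∑ q', M v q q' * G v q q'
      = κ * ∑ v, ∑ q, ∑ q', M v q q' + ∑ v, ∑ q, ∑ q', M v q q' * G' v q q' := by
    simp only [hsplit, Finset.sum_add_distrib, ← Finset.mul_sum]
  rw [e0, htot, mul_one, Finset.mul_sum]
  have := Finset.sum_le_sum (fun v (_ : v ∈ (univ : Finset V)) => hv v)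
  linarith


/-- A sum over `(k+1)`-tuples, split at the first entry. -/
theorem sum_cons {α : Type*} [Fintype α] [DecidableEq α] (k : ℕ)
    (f : (Fin (k + 1) → α) → ℝ) :
    ∑ y : Fin (k + 1) → α, f y = ∑ q : α, ∑ y' : Fin k → α, f (Fin.cons q y') := by
  rw [← Fintype.sum_prod_type']
  refine Fintype.sum_equiv (Fin.consEquiv (fun _ : Fin (k + 1) => α)).symm _ _ ?_
  intro y
  rw [Fin.consEquiv_symm_apply, Fin.cons_self_tail]

/-- A sum over `(j+2)`-tuples, split at the first two entries. -/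
theorem sum_cons_cons {α : Type*} [Fintype α] [DecidableEq α] (j : ℕ)
    (f : (Fin (j + 2) → α) → ℝ) :
    ∑ u : Fin (j + 2) → α, f u
      = ∑ v : Fin j → α, ∑ q : α, ∑ q' : α, f (Fin.cons q (Fin.cons q' v)) := by
  rw [sum_cons (j + 1) f]
  have e : ∀ q : α, ∑ y' : Fin (j + 1) → α, f (Fin.cons q y')
      = ∑ v : Fin j → α, ∑ q' : α, f (Fin.cons q (Fin.cons q' v)) := by
    intro q
    rw [sum_cons j (fun y' => f (Fin.cons q y'))]
    exact Finset.sum_comm
  rw [Finset.sum_congr rfl (fun q _ => e q)]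
  exact Finset.sum_comm

/-- The number of points avoiding an injective family. -/
theorem card_avoid_real {α : Type*} [Fintype α] [DecidableEq α] (j : ℕ) (v : Fin j → α)
    (hv : Function.Injective v) (hj : j ≤ Fintype.card α) :
    (((univ.filter fun q : α => ∀ i, q ≠ v i).card : ℕ) : ℝ) = (Fintype.card α : ℝ) - j := by
  have h1 : (univ.filter fun q : α => ∀ i, q ≠ v i) = (univ.image v)ᶜ := by
    ext q
    simp only [mem_filter, mem_univ, true_and, mem_compl, mem_image, not_exists]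
    constructor
    · intro h i hi
      exact h i hi.symm
    · intro h i hi
      exact h i hi.symm
  rw [h1, Finset.card_compl, Finset.card_image_of_injective _ hv, Finset.card_univ,
    Fintype.card_fin, Nat.cast_sub hj]

/-- Chapman-Kolmogorov for a sum of entries of a matrix power. -/
theorem pow_add_sum {U V A : Type*} [Fintype U] [DecidableEq U] [Fintype V] [Fintype A]
    (Q : Matrix U U ℝ) (t B : ℕ) (u0 : U) (g : V → A → U) :
    ∑ v, ∑ x, (Q ^ (t + B)) u0 (g v x)
      = ∑ u, (Q ^ t) u0 u * ∑ v, ∑ x, (Q ^ B) u (g v x) := by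
  simp only [pow_add, Matrix.mul_apply, Finset.mul_sum]
  have e1 : ∀ v : V, ∑ x : A, ∑ u : U, (Q ^ t) u0 u * (Q ^ B) u (g v x)
      = ∑ u : U, ∑ x : A, (Q ^ t) u0 u * (Q ^ B) u (g v x) := fun v => Finset.sum_comm
  rw [Finset.sum_congr rfl (fun v _ => e1 v)]
  exact Finset.sum_comm

/-- Row sums of the meeting kernel: summing over the second walker. -/
theorem row_sum_one {α : Type*} [Fintype α] [DecidableEq α] (j : ℕ)
    (F : (Fin (j + 2) → α) → (Fin (j + 2) → α) → ℝ)
    (R : (Fin (j + 1) → α) → (Fin (j + 1) → α) → ℝ)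
    (htwo : ∀ (q : α) (v : Fin j → α) (y : Fin (j + 2) → α),
      ∑ q' : α, F (Fin.cons q (Fin.cons q' v)) y
        = R (Fin.cons q v) (Fin.cons (y 0) (Fin.tail (Fin.tail y))))
    (hR : ∀ x, ∑ y, R x y = 1) (v : Fin j → α) (q : α) :
    ∑ q' : α, ∑ v1 : Fin j → α, ∑ x : α,
      F (Fin.cons q (Fin.cons q' v)) (Fin.cons x (Fin.cons x v1) : Fin (j + 2) → α) = 1 := by
  rw [Finset.sum_comm]
  have e : ∀ v1 : Fin j → α, ∑ q' : α, ∑ x : α,
      F (Fin.cons q (Fin.cons q' v)) (Fin.cons x (Fin.cons x v1) : Fin (j + 2) → α)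
      = ∑ x : α, R (Fin.cons q v) (Fin.cons x v1) := by
    intro v1
    rw [Finset.sum_comm]
    refine Finset.sum_congr rfl (fun x _ => ?_)
    rw [htwo q v (Fin.cons x (Fin.cons x v1))]
    rfl
  rw [Finset.sum_congr rfl (fun v1 _ => e v1), Finset.sum_comm,
    ← sum_cons j (fun y => R (Fin.cons q v) y)]
  exact hR _

/-- Column sums of the meeting kernel: summing over the first walker. -/
theorem col_sum_one {α : Type*} [Fintype α] [DecidableEq α] (j : ℕ)
    (F : (Fin (j + 2) → α) → (Fin (j + 2) → α) → ℝ)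
    (R : (Fin (j + 1) → α) → (Fin (j + 1) → α) → ℝ)
    (hone : ∀ (q' : α) (v : Fin j → α) (y : Fin (j + 2) → α),
      ∑ q : α, F (Fin.cons q (Fin.cons q' v)) y = R (Fin.cons q' v) (Fin.tail y))
    (hR : ∀ x, ∑ y, R x y = 1) (v : Fin j → α) (q' : α) :
    ∑ q : α, ∑ v1 : Fin j → α, ∑ x : α,
      F (Fin.cons q (Fin.cons q' v)) (Fin.cons x (Fin.cons x v1) : Fin (j + 2) → α) = 1 := by
  rw [Finset.sum_comm]
  have e : ∀ v1 : Fin j → α, ∑ q : α, ∑ x : α,
      F (Fin.cons q (Fin.cons q' v)) (Fin.cons x (Fin.cons x v1) : Fin (j + 2) → α)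
      = ∑ x : α, R (Fin.cons q' v) (Fin.cons x v1) := by
    intro v1
    rw [Finset.sum_comm]
    refine Finset.sum_congr rfl (fun x _ => ?_)
    rw [hone q' v (Fin.cons x (Fin.cons x v1))]
    rfl
  rw [Finset.sum_congr rfl (fun v1 _ => e v1), Finset.sum_comm,
    ← sum_cons j (fun y => R (Fin.cons q' v) y)]
  exact hR _


/-- CV6 with its prerequisites as hypotheses. -/
theorem Dcol_contract_of (h j : ℕ) [NeZero h]
    (hQnn : ∀ (t : ℕ) (u y : Fin (j + 2) → ZMod (2 * h)), 0 ≤ (Qmat h j ^ t) u y)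
    (hQsum : ∀ (t : ℕ) (u : Fin (j + 2) → ZMod (2 * h)), ∑ y, (Qmat h j ^ t) u y = 1)
    (htwo : ∀ (t : ℕ) (q : ZMod (2 * h)) (v : Fin j → ZMod (2 * h))
      (y : Fin (j + 2) → ZMod (2 * h)),
      ∑ q' : ZMod (2 * h), (Qmat h j ^ t) (Fin.cons q (Fin.cons q' v)) y
        = (Kmat h (j + 1) ^ t) (Fin.cons q v) (dropTwo y))
    (hone : ∀ (t : ℕ) (q' : ZMod (2 * h)) (v : Fin j → ZMod (2 * h))
      (y : Fin (j + 2) → ZMod (2 * h)),
      ∑ q : ZMod (2 * h), (Qmat h j ^ t) (Fin.cons q (Fin.cons q' v)) y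
        = (Kmat h (j + 1) ^ t) (Fin.cons q' v) (Fin.tail y))
    (hsupp : ∀ (t : ℕ) (p p' : ZMod (2 * h)) (w : Fin j → ZMod (2 * h)),
      Function.Injective (Fin.cons p w : Fin (j + 1) → ZMod (2 * h)) →
      Function.Injective (Fin.cons p' w : Fin (j + 1) → ZMod (2 * h)) →
      ∀ (q q' : ZMod (2 * h)) (v : Fin j → ZMod (2 * h)),
        (Qmat h j ^ t) (Fin.cons p (Fin.cons p' w)) (Fin.cons q (Fin.cons q' v)) ≠ 0 →
        Function.Injective v ∧ (∀ i, q ≠ v i) ∧ (∀ i, q' ≠ v i))
    (hle : ∀ (t : ℕ) (p q q' : ZMod (2 * h)) (w v : Fin j → ZMod (2 * h)),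
      2 * (Qmat h j ^ t) (Fin.cons p (Fin.cons p w)) (Fin.cons q (Fin.cons q' v))
        ≤ (Qmat h j ^ t) (Fin.cons p (Fin.cons p w)) (Fin.cons q (Fin.cons q v))
          + (Qmat h j ^ t) (Fin.cons p (Fin.cons p w)) (Fin.cons q' (Fin.cons q' v)))
    (B : ℕ) (κ : ℝ) (hκ : 0 ≤ κ)
    (hκm : κ * ((2 * h : ℝ) - j) ≤ 1)
    (hmin : ∀ (v : Fin j → ZMod (2 * h)) (q q' : ZMod (2 * h)), Function.Injective v →
      (∀ i, q ≠ v i) → (∀ i, q' ≠ v i) → κ ≤ Dcol h j B (Fin.cons q (Fin.cons q' v)))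
    (p : ZMod (2 * h)) (w : Fin j → ZMod (2 * h))
    (hz : Function.Injective (Fin.cons p w : Fin (j + 1) → ZMod (2 * h))) (t : ℕ) :
    Dcol h j (t + B) (Fin.cons p (Fin.cons p w))
      ≤ κ + (1 - κ * ((2 * h : ℝ) - j)) * Dcol h j t (Fin.cons p (Fin.cons p w)) := by
  have _hκ := hκ
  -- the size of the deck
  have hj1 : j + 1 ≤ 2 * h := by
    have h0 := Fintype.card_le_of_injective _ hz
    rwa [Fintype.card_fin, ZMod.card] at h0
  have hcard : ∀ v : Fin j → ZMod (2 * h), Function.Injective v →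
      (((univ.filter fun q : ZMod (2 * h) => ∀ i, q ≠ v i).card : ℕ) : ℝ)
        = (2 * h : ℝ) - j := by
    intro v hv
    rw [card_avoid_real j v hv (by rw [ZMod.card]; omega), ZMod.card]
    push_cast
    ring
  -- step 1: Chapman-Kolmogorov
  have h1 : Dcol h j (t + B) (Fin.cons p (Fin.cons p w))
      = ∑ v : Fin j → ZMod (2 * h), ∑ q : ZMod (2 * h), ∑ q' : ZMod (2 * h),
          (Qmat h j ^ t) (Fin.cons p (Fin.cons p w)) (Fin.cons q (Fin.cons q' v))
            * Dcol h j B (Fin.cons q (Fin.cons q' v)) := by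
    rw [← sum_cons_cons j (fun u => (Qmat h j ^ t) (Fin.cons p (Fin.cons p w)) u * Dcol h j B u)]
    exact pow_add_sum (Qmat h j) t B (Fin.cons p (Fin.cons p w))
      (fun (v : Fin j → ZMod (2 * h)) (x : ZMod (2 * h)) =>
        (Fin.cons x (Fin.cons x v) : Fin (j + 2) → ZMod (2 * h)))
  -- step 2: row and column sums
  have hrow : ∀ (v : Fin j → ZMod (2 * h)) (q : ZMod (2 * h)),
      ∑ q' : ZMod (2 * h), Dcol h j B (Fin.cons q (Fin.cons q' v)) = 1 := fun v q =>
    row_sum_one j (fun u y => (Qmat h j ^ B) u y) (fun x y => (Kmat h (j + 1) ^ B) x y)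
      (fun q v y => htwo B q v y) (fun x => H95.Kmat_pow_sum h (j + 1) B x) v q
  have hcol : ∀ (v : Fin j → ZMod (2 * h)) (q' : ZMod (2 * h)),
      ∑ q : ZMod (2 * h), Dcol h j B (Fin.cons q (Fin.cons q' v)) = 1 := fun v q' =>
    col_sum_one j (fun u y => (Qmat h j ^ B) u y) (fun x y => (Kmat h (j + 1) ^ B) x y)
      (fun q' v y => hone B q' v y) (fun x => H95.Kmat_pow_sum h (j + 1) B x) v q'
  -- nonnegativity of the meeting kernel
  have hGnn : ∀ (v : Fin j → ZMod (2 * h)) (q q' : ZMod (2 * h)),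
      0 ≤ Dcol h j B (Fin.cons q (Fin.cons q' v)) := fun v q q' =>
    Finset.sum_nonneg (fun v1 _ => Finset.sum_nonneg (fun x _ => hQnn B _ _))
  -- total mass
  have htot : ∑ v : Fin j → ZMod (2 * h), ∑ q : ZMod (2 * h), ∑ q' : ZMod (2 * h),
      (Qmat h j ^ t) (Fin.cons p (Fin.cons p w)) (Fin.cons q (Fin.cons q' v)) = 1 := by
    rw [← sum_cons_cons j (fun u => (Qmat h j ^ t) (Fin.cons p (Fin.cons p w)) u)]
    exact hQsum t _
  have key := abstract_contract (V := Fin j → ZMod (2 * h)) (A := ZMod (2 * h))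
    (fun v q q' => (Qmat h j ^ t) (Fin.cons p (Fin.cons p w)) (Fin.cons q (Fin.cons q' v)))
    (fun v q q' => Dcol h j B (Fin.cons q (Fin.cons q' v)))
    (fun v => Function.Injective v) (fun v q => ∀ i, q ≠ v i) κ ((2 * h : ℝ) - j) hκm
    (fun v q q' => hQnn t _ _) hGnn
    (fun v q q' hne => hsupp t p p w hz hz q q' v hne)
    (fun v q q' hv hq hq' => hmin v q q' hv hq hq')
    hrow hcol hcard
    (fun v q q' => hle t p q q' w v)
    htot
  rw [h1]
  exact key

end Vale.Agent.Lib.P162.H62CV
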